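import Mathlib.MeasureTheory.Integral.Bochner.Set
import Mathlib.MeasureTheory.Constructions.Pi
import Mathlib.MeasureTheory.Measure.Lebesgue.Complex
import Mathlib.Analysis.SpecialFunctions.Exp
import Mathlib.Analysis.SpecialFunctions.Pow.Real
import Mathlib.Analysis.Calculus.Deriv.Basic
import Mathlib.Probability.Distributions.Gaussian.Real
import Mathlib.Probability.Independence.Basic

open Set Filter Topology MeasureTheory ProbabilityTheory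
open scoped NNReal ENNReal

namespace Vale.Agent.P139.A

/-- `|n|² = n_1² + ... + n_d²` for a frequency `n ∈ ℤ^d`. -/
def sqNorm {d : ℕ} (n : Fin d → ℤ) : ℝ := ∑ j, (n j : ℝ) ^ 2

/-- The character `x ↦ e^{i n·x}`. -/
noncomputable def expi {d : ℕ} (n : Fin d → ℤ) (x : Fin d → ℝ) : ℂ :=
  Complex.exp (Complex.I * ∑ j, (n j : ℂ) * (x j : ℂ))

/-- The function on the torus (a `2π`-periodic function on `ℝ^d`) with Fourier coefficients `a`. -/
noncomputable def series {d : ℕ} (a : (Fin d → ℤ) → ℂ) (x : Fin d → ℝ) : ℂ :=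
  ∑' n, a n * expi n x

/-- The `n`-th Fourier coefficient `(2π)^{-d} ∫_{[0,2π]^d} f(x) e^{-i n·x} dx`. -/
noncomputable def fourierCoef {d : ℕ} (f : (Fin d → ℝ) → ℂ) (n : Fin d → ℤ) : ℂ :=
  ((2 * Real.pi : ℂ) ^ d)⁻¹ * ∫ x in Icc (0 : Fin d → ℝ) (fun _ => 2 * Real.pi), f x * expi (-n) x

/-- Membership in `H^k(T^d)`: `∑ (1+|n|²)^k |a_n|² < ∞`. -/
def MemSobolev {d : ℕ} (k : ℕ) (a : (Fin d → ℤ) → ℂ) : Prop :=
  Summable fun n => (1 + sqNorm n) ^ k * ‖a n‖ ^ 2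

/-- The squared `H^k(T^d)` norm. -/
noncomputable def sobolevSq {d : ℕ} (k : ℕ) (a : (Fin d → ℤ) → ℂ) : ℝ :=
  ∑' n, (1 + sqNorm n) ^ k * ‖a n‖ ^ 2

/-- `u` (given through its Fourier coefficients `u t n`) belongs to `C([0,T]; H^k(T^d))` and solves
`i ∂_t u + Δ u = |u|^{p-1} u` on `[0,T]`, read on every Fourier coefficient. -/
structure IsSolution (d p k : ℕ) (T : ℝ) (u : ℝ → (Fin d → ℤ) → ℂ) : Prop where
  mem : ∀ t ∈ Icc 0 T, MemSobolev k (u t)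
  cont : ∀ t ∈ Icc 0 T, Tendsto (fun s => sobolevSq k (fun n => u s n - u t n))
    (𝓝[Icc 0 T] t) (𝓝 0)
  eqn : ∀ t ∈ Icc 0 T, ∀ n, ∃ v : ℂ, HasDerivWithinAt (fun s => u s n) v (Icc 0 T) t ∧
    Complex.I * v - sqNorm n * u t n =
      fourierCoef (fun x => (‖series (u t) x‖ : ℂ) ^ (p - 1) * series (u t) x) n

/-- The lifespan `T*` in `H^k` of the datum with Fourier coefficients `a`. -/
noncomputable def lifespan (d p k : ℕ) (a : (Fin d → ℤ) → ℂ) : ℝ≥0∞ :=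
  ⨆ (T : ℝ≥0) (_ : ∃ u, IsSolution d p k T u ∧ u 0 = a), (T : ℝ≥0∞)

/-- The standard complex Gaussian law (`E|g|² = 1`). -/
noncomputable def stdComplexGaussian : Measure ℂ :=
  ((gaussianReal 0 (1 / 2)).prod (gaussianReal 0 (1 / 2))).map fun z : ℝ × ℝ => (⟨z.1, z.2⟩ : ℂ)

/-- Fourier coefficients of `u_0^ω = ∑ g_n(ω) ⟨n⟩^{-α} e^{i n·x}`. -/
noncomputable def datum {d : ℕ} {Ω : Type*} (g : (Fin d → ℤ) → Ω → ℂ) (α : ℝ) (ω : Ω)
    (n : Fin d → ℤ) : ℂ :=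
  g n ω * ((Real.sqrt (1 + sqNorm n) ^ (-α) : ℝ) : ℂ)

end Vale.Agent.P139.A
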